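import Vale.Agent.P007.Packet
import Vale.Agent.P007.Fields

namespace Vale.Agent.Results.P007.CompositeDegree

open Vale.Agent.P007
open Matrix MeasureTheory Filter Topology Module NumberField Polynomial
open scoped MatrixGroups

lemma general (n : ℕ) (P : ℤ[X]) (hP : P ≠ 0) :
    ∃ f : Latt n → ℝ, Continuous f ∧ HasCompactSupport f ∧ (∀ x, 0 ≤ f x) ∧ (∃ x, f x = 1) ∧
      ∀ (K : Type) [Field K] [NumberField K], finrank ℚ K = n →
        ∀ σ : Fin n → (K →+* ℝ), Function.Injective σ → ∀ O : Subring K,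
        (∃ α ∈ O, aeval α P = 0 ∧ α ∉ Set.range (algebraMap ℚ K)) →
        ∀ x ∈ packetSet σ O, f x = 0 := by
  set S : Set (Fin n → ℝ) :=
    {r | (∀ j, r j ∈ P.rootSet ℝ) ∧ ∃ i j, r i ≠ r j} with hS
  have hfin : S.Finite := by
    refine (Set.Finite.pi fun _ : Fin n => P.rootSet_finite ℝ).subset fun r hr => ?_
    exact fun j _ => hr.1 j
  obtain ⟨f, hc, hs, h0, h1, hz⟩ := exists_test S hfin fun r hr => hr.2
  refine ⟨f, hc, hs, h0, h1, ?_⟩
  intro K _ _ hn σ hσ O ⟨α, hαO, hαP, hαQ⟩ x hx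
  refine hz (fun j => σ j α) ⟨fun j => ?_, nonconst σ hn hσ hαQ⟩ x (packet_stable σ O hαO hx)
  refine (mem_rootSet_of_ne hP).2 ?_
  exact (aeval_algHom_apply (σ j).toIntAlgHom α P).trans (by rw [hαP, map_zero])

/-- Packets whose orders contain a fixed irrational algebraic integer miss a fixed test function;
consequently equidistribution fails in every composite degree, for maximal orders. -/
theorem result :
    (∀ (n : ℕ) (P : ℤ[X]), P ≠ 0 →
      ∃ f : Latt n → ℝ, Continuous f ∧ HasCompactSupport f ∧ (∀ x, 0 ≤ f x) ∧ (∃ x, f x = 1) ∧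
        ∀ (K : Type) [Field K] [NumberField K], finrank ℚ K = n →
          ∀ σ : Fin n → (K →+* ℝ), Function.Injective σ → ∀ O : Subring K,
          (∃ α ∈ O, aeval α P = 0 ∧ α ∉ Set.range (algebraMap ℚ K)) →
          ∀ x ∈ packetSet σ O, f x = 0) ∧
    (∀ n : ℕ, 4 ≤ n → ¬ n.Prime →
      ∃ (K : ℕ → IntermediateField ℚ ℂ) (hK : ∀ i, NumberField (K i)),
        (∀ i, finrank ℚ (K i) = n ∧ ∃ σ : Fin n → (K i →+* ℝ), Function.Injective σ) ∧
        (∀ i, ∀ σ : Fin n → (K i →+* ℝ), Function.Injective σ →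
          (packetSet σ (integralClosure ℤ (K i)).toSubring).Nonempty) ∧
        Tendsto (fun i => |@NumberField.discr (K i) _ (hK i)|) atTop atTop ∧
        ∃ f : Latt n → ℝ, Continuous f ∧ HasCompactSupport f ∧
          ∀ σ : ∀ i, Fin n → (K i →+* ℝ), (∀ i, Function.Injective (σ i)) →
          ∀ [MeasurableSpace (Latt n)] [BorelSpace (Latt n)]
            (μ : ℕ → Measure (Latt n)) (m : Measure (Latt n)),
            (∀ i, IsProbabilityMeasure (μ i)) →
            (∀ i, μ i (packetSet (σ i) (integralClosure ℤ (K i)).toSubring)ᶜ = 0) →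
            IsProbabilityMeasure m → (∀ g : SL(n, ℝ), m.map (g • ·) = m) →
            ¬ Tendsto (fun i => ∫ x, f x ∂μ i) atTop (𝓝 (∫ x, f x ∂m))) := by
  refine ⟨general, fun n hn4 hnp => ?_⟩
  obtain ⟨a, had, ha2, han⟩ := Nat.exists_dvd_of_not_prime2 (by omega) hnp
  obtain ⟨b, rfl⟩ := had
  have hb2 : 2 ≤ b := by
    rcases Nat.lt_or_ge b 2 with h | h
    · interval_cases b <;> omega
    · exact h
  obtain ⟨K, hK, α, P, hPm, hprop, hdisc⟩ := exists_fields a b ha2 hb2
  obtain ⟨f, hc, hs, h0, h1, hz⟩ := general (a * b) P hPm.ne_zero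
  refine ⟨K, hK, fun i => ⟨(hprop i).1, ?_⟩, fun i σ hσ =>
    @packet_maximal_nonempty (a * b) (K i) _ (hK i) σ (hprop i).1 hσ (by omega), hdisc,
    f, hc, hs, ?_⟩
  · have := hK i
    let e : (K i →+* ℂ) ≃ Fin (a * b) :=
      Fintype.equivFinOfCardEq ((Embeddings.card (K i) ℂ).trans (hprop i).1)
    refine ⟨fun j => ((hprop i).2.1 (e.symm j)).embedding, fun j k hjk => e.symm.injective ?_⟩
    refine RingHom.ext fun x => ?_
    rw [← ((hprop i).2.1 (e.symm j)).coe_embedding_apply x,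
      ← ((hprop i).2.1 (e.symm k)).coe_embedding_apply x]
    exact congrArg Complex.ofReal (DFunLike.congr_fun hjk x)
  intro σ hσ _ _ μ m hμ hsupp hm hinv hlim
  have hzero : ∀ i, ∫ x, f x ∂μ i = 0 := by
    intro i
    obtain ⟨β, -, hβi, hβP, hβQ⟩ := (hprop i).2.2
    refine integral_eq_zero_of_ae ?_
    refine measure_mono_null (fun x hx => ?_) (hsupp i)
    exact fun hxp => hx (@hz (K i) _ (hK i) (hprop i).1 (σ i) (hσ i)
      (integralClosure ℤ (K i)).toSubring ⟨β, hβi, hβP, hβQ⟩ x hxp)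
  simp only [hzero] at hlim
  have hpos := integral_pos_of_invariant m hinv f hc hs h0 h1
  exact hpos.ne (tendsto_nhds_unique tendsto_const_nhds hlim)

end Vale.Agent.Results.P007.CompositeDegree
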